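import Mathlib

/-! # Expanding polytopes -/

namespace Vale.Agent.P335.H498

open Classical in
/-- For a finite set `V` of vectors, about the graph of the polytope `conv V` (`x`, `y` are joined
if the segment `[x, y]` is a face of `conv V`). First part, the Mihail-Vazirani inequality: every
`S ⊆ V` with at most half of the points has at least `|S|` edges to `V \ S`. Second part: the
Laplacian of this graph has no eigenvalue less than `2` besides the trivial one, in the form of a
Poincaré inequality (ordered pairs on both sides). -/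
def ExpandingPolytope {ι : Type*} (V : Finset (ι → ℝ)) : Prop :=
  (∀ S ⊆ V, 2 * S.card ≤ V.card →
    S.card ≤ ((S ×ˢ (V \ S)).filter fun p =>
      IsExposed ℝ (convexHull ℝ (V : Set (ι → ℝ))) (segment ℝ p.1 p.2)).card) ∧
  ∀ f : (ι → ℝ) → ℝ, ∑ x ∈ V, ∑ y ∈ V, (f x - f y) ^ 2 ≤
    (V.card : ℝ) / 2 * ∑ p ∈ (V ×ˢ V).filter (fun p => p.1 ≠ p.2 ∧
      IsExposed ℝ (convexHull ℝ (V : Set (ι → ℝ))) (segment ℝ p.1 p.2)), (f p.1 - f p.2) ^ 2

end Vale.Agent.P335.H498
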