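import Mathlib
import Vale.Agent.P335.H586.BipChain

/-!
# The Mihail-Vazirani property of degree polytopes

The graph of a 0/1 polytope should have edge expansion at least one (Mihail and Vazirani). Here:
this holds for the convex hull of the simple graphs with a given degree sequence, and for the
convex hull of the 0/1 matrices with given row and column sums.
-/

namespace Vale.Agent.P335.H498

open Finset

open Classical in
/-- The Mihail-Vazirani property of a finite set `V` of vectors: for every partition of `V` into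
two sets `S`, `T` with `|S| ≤ |T|`, at least `|S|` pairs `(x, y)`, `x ∈ S`, `y ∈ T`, are joined by
an edge of the polytope `conv V`, that is, the segment `[x, y]` is a face of `conv V`. -/
def MihailVazirani {ι : Type*} (V : Set (ι → ℝ)) : Prop :=
  ∀ S T : Finset (ι → ℝ), (S : Set (ι → ℝ)) ∪ T = V → Disjoint S T → S.card ≤ T.card →
    S.card ≤ ((S ×ˢ T).filter fun p =>
      IsExposed ℝ (convexHull ℝ V) (segment ℝ p.1 p.2)).card

section Exposed

variable {ι : Type*} [Fintype ι] {V : Finset (ι → ℝ)}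

open Classical in
/-- Two points `x`, `y` of a set of 0/1 vectors such that no third one agrees with `x` wherever
`x` and `y` agree: the segment is an exposed face. -/
theorem exposed (h01 : ∀ v ∈ V, ∀ i, v i = 0 ∨ v i = 1) {x y : ι → ℝ} (hx : x ∈ V) (hy : y ∈ V)
    (h : ∀ z ∈ V, (∀ i, x i = y i → z i = x i) → z = x ∨ z = y) :
    IsExposed ℝ (convexHull ℝ (V : Set (ι → ℝ))) (segment ℝ x y) := by
  intro _
  set A : Finset ι := univ.filter fun i => x i = y i with hA
  let l : StrongDual ℝ (ι → ℝ) :=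
    ∑ i ∈ A, (2 * x i - 1) • (ContinuousLinearMap.proj (R := ℝ) (φ := fun _ : ι => ℝ) i)
  have hl : ∀ z : ι → ℝ, l z = ∑ i ∈ A, (2 * x i - 1) * z i := by
    intro z
    simp [l, ContinuousLinearMap.sum_apply]
  have hle : ∀ v ∈ V, l v ≤ ∑ i ∈ A, x i := by
    intro v hv
    rw [hl]
    refine Finset.sum_le_sum fun i _ => ?_
    rcases h01 v hv i with h1 | h1 <;> rcases h01 x hx i with h2 | h2 <;> rw [h1, h2] <;> norm_num
  have heq : ∀ v ∈ V, l v = ∑ i ∈ A, x i → v = x ∨ v = y := by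
    intro v hv hv'
    refine h v hv fun i hi => ?_
    rw [hl] at hv'
    have h3 : ∀ j ∈ A, (2 * x j - 1) * v j ≤ x j := by
      intro j _
      rcases h01 v hv j with h1 | h1 <;> rcases h01 x hx j with h2 | h2 <;> rw [h1, h2] <;>
        norm_num
    have h4 := (Finset.sum_eq_sum_iff_of_le h3).1 hv' i (by rw [hA]; simp [hi])
    rcases h01 v hv i with h1 | h1 <;> rcases h01 x hx i with h2 | h2 <;> rw [h1, h2] at h4 ⊢ <;>
      norm_num at h4
  have hlx : l x = ∑ i ∈ A, x i := by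
    rw [hl]
    refine Finset.sum_congr rfl fun i _ => ?_
    rcases h01 x hx i with h2 | h2 <;> rw [h2] <;> norm_num
  have hly : l y = ∑ i ∈ A, x i := by
    rw [← hlx, hl, hl]
    refine Finset.sum_congr rfl fun i hi => ?_
    rw [hA, Finset.mem_filter] at hi
    rw [hi.2]
  have hconv : ∀ z ∈ convexHull ℝ (V : Set (ι → ℝ)), l z ≤ ∑ i ∈ A, x i := by
    intro z hz
    have h5 : convexHull ℝ (V : Set (ι → ℝ)) ⊆ {w | l w ≤ ∑ i ∈ A, x i} :=
      convexHull_min (fun v hv => hle v hv) (convex_halfSpace_le l.toLinearMap.isLinear _)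
    exact h5 hz
  refine ⟨l, Set.Subset.antisymm ?_ ?_⟩
  · intro z hz
    have hz1 : z ∈ convexHull ℝ (V : Set (ι → ℝ)) :=
      (convex_convexHull ℝ _).segment_subset (subset_convexHull ℝ _ hx)
        (subset_convexHull ℝ _ hy) hz
    refine ⟨hz1, fun w hw => (hconv w hw).trans (le_of_eq ?_)⟩
    obtain ⟨a, b, _, _, hab, rfl⟩ := hz
    rw [map_add, map_smul, map_smul, hlx, hly, smul_eq_mul, smul_eq_mul, ← add_mul, hab, one_mul]
  · rintro z ⟨hz, hmax⟩
    have hz' : l z = ∑ i ∈ A, x i :=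
      le_antisymm (hconv z hz) (hlx ▸ hmax x (subset_convexHull ℝ _ hx))
    obtain ⟨w, hw0, hw1, hwz⟩ := Finset.mem_convexHull'.1 hz
    have h6 : ∑ v ∈ V, w v * l v = ∑ v ∈ V, w v * ∑ i ∈ A, x i := by
      rw [← Finset.sum_mul, hw1, one_mul, ← hz', ← hwz, map_sum]
      simp only [map_smul, smul_eq_mul]
    have h7 : ∀ v ∈ V, w v * l v = w v * ∑ i ∈ A, x i :=
      (Finset.sum_eq_sum_iff_of_le fun v hv =>
        mul_le_mul_of_nonneg_left (hle v hv) (hw0 v hv)).1 h6
    have h8 : ∀ v ∈ V, w v ≠ 0 → v = x ∨ v = y := fun v hv hne =>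
      heq v hv (mul_left_cancel₀ hne (h7 v hv))
    rw [← convexHull_pair]
    rw [← hwz]
    have h9 : ∑ v ∈ V, w v • v = ∑ v ∈ V.filter (fun v => w v ≠ 0), w v • v := by
      rw [Finset.sum_filter]
      refine Finset.sum_congr rfl fun v _ => ?_
      by_cases h0 : w v = 0
      · rw [if_neg (by simpa using h0), h0, zero_smul]
      · rw [if_pos h0]
    have h10 : ∑ v ∈ V.filter (fun v => w v ≠ 0), w v = 1 := by
      rw [Finset.sum_filter_ne_zero, hw1]
    rw [h9]
    refine (convex_convexHull ℝ _).sum_mem (fun v hv => hw0 v (Finset.mem_filter.1 hv).1) h10 ?_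
    intro v hv
    rw [Finset.mem_filter] at hv
    refine subset_convexHull ℝ _ ?_
    rcases h8 v hv.1 hv.2 with h' | h' <;> simp [h']

end Exposed

section Expansion

open Classical in
/-- From the Poincaré inequality to the edge expansion. -/
theorem expansion {Ω : Type*} [Fintype Ω] (R : Ω → Ω → Prop)
    (hP : ∀ f : Ω → ℝ, ∑ G, ∑ H, (f G - f H) ^ 2 ≤ 1 / 2 * (Fintype.card Ω : ℝ) *
      ∑ G, ∑ H, (if R G H then (f G - f H) ^ 2 else 0)) (hR : ∀ G H, R G H → R H G)
    (T : Finset Ω) (hT : 2 * T.card ≤ Fintype.card Ω) :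
    T.card ≤ ((T ×ˢ Tᶜ).filter fun p => R p.1 p.2).card := by
  set f : Ω → ℝ := fun G => if G ∈ T then 1 else 0 with hf
  set N : ℝ := (((T ×ˢ Tᶜ).filter fun p => R p.1 p.2).card : ℝ) with hN
  have e1 : ∀ G H, (f G - f H) ^ 2 = (if G ∈ T ∧ H ∈ Tᶜ then 1 else 0) +
      (if G ∈ Tᶜ ∧ H ∈ T then 1 else 0) := by
    intro G H
    simp only [hf, Finset.mem_compl]
    by_cases h1 : G ∈ T <;> by_cases h2 : H ∈ T <;> simp [h1, h2]
  have s1 : ∑ G, ∑ H, (f G - f H) ^ 2 = 2 * (T.card : ℝ) * ((Tᶜ : Finset Ω).card : ℝ) := by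
    simp_rw [e1, Finset.sum_add_distrib]
    have a1 : ∀ A B : Finset Ω, ∑ G : Ω, ∑ H : Ω, (if G ∈ A ∧ H ∈ B then (1 : ℝ) else 0) =
        (A.card : ℝ) * (B.card : ℝ) := by
      intro A B
      have : ∀ G H : Ω, (if G ∈ A ∧ H ∈ B then (1 : ℝ) else 0) =
          (if G ∈ A then 1 else 0) * (if H ∈ B then 1 else 0) := by
        intro G H
        by_cases h1 : G ∈ A <;> by_cases h2 : H ∈ B <;> simp [h1, h2]
      simp_rw [this, ← Finset.mul_sum, ← Finset.sum_mul]
      simp
    rw [a1, a1]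
    ring
  have s2 : ∑ G, ∑ H, (if R G H then (f G - f H) ^ 2 else 0) = 2 * N := by
    have e2 : ∀ G H, (if R G H then (f G - f H) ^ 2 else 0) =
        (if G ∈ T ∧ H ∈ Tᶜ ∧ R G H then (1 : ℝ) else 0) +
        (if H ∈ T ∧ G ∈ Tᶜ ∧ R H G then 1 else 0) := by
      intro G H
      rw [e1]
      have hRR : R G H ↔ R H G := ⟨hR G H, hR H G⟩
      by_cases h0 : R G H
      · have h0' := hRR.1 h0
        by_cases h1 : G ∈ T <;> by_cases h2 : H ∈ T <;> simp [h0, h0', h1, h2]
      · have h0' : ¬ R H G := fun h => h0 (hRR.2 h)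
        simp [h0, h0']
    simp_rw [e2, Finset.sum_add_distrib]
    have a2 : ∑ G, ∑ H, (if G ∈ T ∧ H ∈ Tᶜ ∧ R G H then (1 : ℝ) else 0) = N := by
      rw [hN, Finset.card_filter, Finset.sum_product, Nat.cast_sum]
      rw [← Finset.sum_subset (Finset.subset_univ T)]
      · refine Finset.sum_congr rfl fun G hG => ?_
        rw [Nat.cast_sum, ← Finset.sum_subset (Finset.subset_univ (Tᶜ : Finset Ω))]
        · refine Finset.sum_congr rfl fun H hH => ?_
          simp [hG, hH]
        · intro H _ hH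
          simp [hH]
      · intro G _ hG
        simp [hG]
    have a3 : ∑ G, ∑ H, (if H ∈ T ∧ G ∈ Tᶜ ∧ R H G then (1 : ℝ) else 0) = N := by
      rw [Finset.sum_comm]
      exact a2
    rw [a2, a3]
    ring
  have h1 := hP f
  rw [s1, s2] at h1
  have h2 : (T.card : ℝ) + ((Tᶜ : Finset Ω).card : ℝ) = Fintype.card Ω := by
    have := Finset.card_add_card_compl T
    exact_mod_cast this
  have h3 : (2 : ℝ) * T.card ≤ Fintype.card Ω := by exact_mod_cast hT
  rcases Nat.eq_zero_or_pos T.card with h0 | h0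
  · rw [h0]; exact Nat.zero_le _
  have h4 : (0 : ℝ) < T.card := by exact_mod_cast h0
  have h5 : (0 : ℝ) < Fintype.card Ω := by linarith
  have h6 : (T.card : ℝ) * Fintype.card Ω ≤ N * Fintype.card Ω := by nlinarith
  have h7 : (T.card : ℝ) ≤ N := le_of_mul_le_mul_right h6 h5
  rw [hN] at h7
  exact_mod_cast h7

open Classical in
/-- Transport of the expansion to the polytope. -/
theorem mihailVazirani_of {ι Ω : Type*} [Fintype Ω] (φ : Ω → ι → ℝ) (hφ : Function.Injective φ)
    (R : Ω → Ω → Prop)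
    (hP : ∀ f : Ω → ℝ, ∑ G, ∑ H, (f G - f H) ^ 2 ≤ 1 / 2 * (Fintype.card Ω : ℝ) *
      ∑ G, ∑ H, (if R G H then (f G - f H) ^ 2 else 0))
    (hE : ∀ G H, R G H → IsExposed ℝ (convexHull ℝ (Set.range φ)) (segment ℝ (φ G) (φ H))) :
    MihailVazirani (Set.range φ) := by
  obtain ⟨R', hR'⟩ : ∃ R' : Ω → Ω → Prop, ∀ G H, R' G H ↔ (R G H ∨ R H G) :=
    ⟨_, fun _ _ => Iff.rfl⟩
  have hP' : ∀ f : Ω → ℝ, ∑ G, ∑ H, (f G - f H) ^ 2 ≤ 1 / 2 * (Fintype.card Ω : ℝ) *
      ∑ G, ∑ H, (if R' G H then (f G - f H) ^ 2 else 0) := by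
    intro f
    refine (hP f).trans (mul_le_mul_of_nonneg_left ?_ (by positivity))
    refine Finset.sum_le_sum fun G _ => Finset.sum_le_sum fun H _ => ?_
    by_cases h : R G H
    · rw [if_pos h, if_pos ((hR' G H).2 (Or.inl h))]
    · rw [if_neg h]
      split_ifs
      · positivity
      · exact le_rfl
  have hE' : ∀ G H, R' G H →
      IsExposed ℝ (convexHull ℝ (Set.range φ)) (segment ℝ (φ G) (φ H)) := by
    intro G H h0
    rcases (hR' G H).1 h0 with h | h
    · exact hE G H h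
    · rw [segment_symm]
      exact hE H G h
  intro S T hST hd hcard
  set A : Finset Ω := univ.filter fun G => φ G ∈ S with hA
  have hAc : Aᶜ = univ.filter fun G => φ G ∈ T := by
    ext G
    have h1 : φ G ∈ S ∨ φ G ∈ T := by
      have : φ G ∈ (S : Set (ι → ℝ)) ∪ T := by rw [hST]; exact ⟨G, rfl⟩
      simpa using this
    simp only [hA, Finset.mem_compl, Finset.mem_filter, Finset.mem_univ, true_and]
    constructor
    · intro h; exact h1.resolve_left h
    · intro h h'; exact (Finset.disjoint_left.1 hd) h' h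
  have im : ∀ W : Finset (ι → ℝ), (W : Set (ι → ℝ)) ⊆ Set.range φ →
      W.card = (univ.filter fun G => φ G ∈ W).card := by
    intro W hW
    have : W = (univ.filter fun G => φ G ∈ W).image φ := by
      ext z
      simp only [Finset.mem_image, Finset.mem_filter, Finset.mem_univ, true_and]
      constructor
      · intro hz
        obtain ⟨G, hG⟩ := hW hz
        exact ⟨G, hG ▸ hz, hG⟩
      · rintro ⟨G, hG, rfl⟩
        exact hG
    conv_lhs => rw [this]
    exact Finset.card_image_of_injective _ hφ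
  have c1 : S.card = A.card := im S (by rw [← hST]; exact Set.subset_union_left)
  have c2 : T.card = Aᶜ.card := by
    rw [hAc]; exact im T (by rw [← hST]; exact Set.subset_union_right)
  have hc : 2 * A.card ≤ Fintype.card Ω := by
    have := Finset.card_add_card_compl A
    omega
  rw [c1]
  refine (expansion R' hP' (fun G H h => (hR' H G).2 ((hR' G H).1 h).symm) A hc).trans ?_
  refine Finset.card_le_card_of_injOn (fun p => (φ p.1, φ p.2)) ?_ ?_
  · rintro ⟨G, H⟩ hp
    have hp' := Finset.mem_filter.1 (Finset.mem_coe.1 hp)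
    obtain ⟨h12, h3⟩ := hp'
    obtain ⟨h1, h2⟩ := Finset.mem_product.1 h12
    rw [hAc] at h2
    exact Finset.mem_coe.2 (Finset.mem_filter.2 ⟨Finset.mem_product.2
      ⟨(Finset.mem_filter.1 h1).2, (Finset.mem_filter.1 h2).2⟩, hE' G H h3⟩)
  · rintro ⟨G, H⟩ _ ⟨G', H'⟩ _ h
    have h' := Prod.mk.inj h
    exact Prod.ext (hφ h'.1) (hφ h'.2)

end Expansion

section Graphs

variable {n : ℕ}

open Classical in
/-- characteristic vector of the edge set -/
noncomputable def ev (G : SimpleGraph (Fin n)) : Sym2 (Fin n) → ℝ :=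
  G.edgeSet.indicator 1

theorem ev_one {G : SimpleGraph (Fin n)} {u v : Fin n} (h : G.Adj u v) : ev G s(u, v) = 1 := by
  unfold ev
  rw [Set.indicator_of_mem (by simpa using h)]
  rfl

theorem ev_zero {G : SimpleGraph (Fin n)} {u v : Fin n} (h : ¬ G.Adj u v) : ev G s(u, v) = 0 := by
  unfold ev
  rw [Set.indicator_of_notMem (by simpa using h)]

theorem ev_01 (G : SimpleGraph (Fin n)) (e : Sym2 (Fin n)) : ev G e = 0 ∨ ev G e = 1 := by
  induction e using Sym2.ind with
  | _ u v =>
    by_cases h : G.Adj u v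
    · exact Or.inr (ev_one h)
    · exact Or.inl (ev_zero h)

theorem ev_inj : Function.Injective (ev (n := n)) := by
  intro G H h
  ext u v
  have h1 := congrFun h s(u, v)
  by_cases hG : G.Adj u v <;> by_cases hH : H.Adj u v
  · simp [hG, hH]
  · rw [ev_one hG, ev_zero hH] at h1; norm_num at h1
  · rw [ev_zero hG, ev_one hH] at h1; norm_num at h1
  · simp [hG, hH]

open Classical in
theorem ev_deg {d : Fin n → ℕ} {G : SimpleGraph (Fin n)} (hG : HasDegrees d G) (v : Fin n) :
    ∑ w, ev G s(v, w) = d v := by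
  have h := (H586.hasDegrees_iff d G).1 hG v
  have h' : ((∑ w, (if G.Adj v w then 1 else 0) : ℕ) : ℝ) = d v := by exact_mod_cast h
  rw [← h', Nat.cast_sum]
  refine Finset.sum_congr rfl fun w _ => ?_
  by_cases hw : G.Adj v w
  · rw [ev_one hw, if_pos hw, Nat.cast_one]
  · rw [ev_zero hw, if_neg hw, Nat.cast_zero]

open Classical in
theorem two_eq {α : Type*} [Fintype α] {x z : α → ℝ} {w₁ w₂ : α} (hw : w₁ ≠ w₂)
    (hs : ∑ w, z w = ∑ w, x w) (h : ∀ w, w ≠ w₁ → w ≠ w₂ → z w = x w) :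
    z w₁ + z w₂ = x w₁ + x w₂ := by
  have h1 : ∑ w, (z w - x w) = 0 := by rw [Finset.sum_sub_distrib, hs, sub_self]
  have h2 : ∑ w, (z w - x w) = ∑ w ∈ {w₁, w₂}, (z w - x w) := by
    refine (Finset.sum_subset (Finset.subset_univ _) fun w _ hw' => ?_).symm
    simp only [Finset.mem_insert, Finset.mem_singleton, not_or] at hw'
    rw [h w hw'.1 hw'.2, sub_self]
  rw [h2, Finset.sum_pair hw] at h1
  linarith

theorem s_ne {v w x y : Fin n} (h : v ≠ x ∨ w ≠ y) (h' : v ≠ y ∨ w ≠ x) :
    s(v, w) ≠ s(x, y) := by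
  rw [Ne, Sym2.eq_iff]
  tauto

theorem switch_third {d : Fin n → ℕ} {G H K : SimpleGraph (Fin n)} (hG : HasDegrees d G)
    (hK : HasDegrees d K) (hs : SwitchAdj G H)
    (h : ∀ e, ev G e = ev H e → ev K e = ev G e) : ev K = ev G ∨ ev K = ev H := by
  obtain ⟨a, b, c, e, hab, hac, hae, hbc, hbe, hce, h1, h2, h3, h4, h5⟩ := hs
  have hH : ∀ u v, H.Adj u v ↔ ((G.Adj u v ∧ s(u, v) ≠ s(a, b) ∧ s(u, v) ≠ s(c, e)) ∨
      (s(u, v) = s(a, c) ∨ s(u, v) = s(b, e))) ∧ u ≠ v := by
    intro u v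
    rw [h5, SimpleGraph.fromEdgeSet_adj]
    simp only [Set.mem_union, Set.mem_sdiff, SimpleGraph.mem_edgeSet, Set.mem_insert_iff,
      Set.mem_singleton_iff, not_or, ne_eq]
  have off : ∀ x : Sym2 (Fin n), x ≠ s(a, b) → x ≠ s(c, e) → x ≠ s(a, c) → x ≠ s(b, e) →
      ev G x = ev H x := by
    intro x k1 k2 k3 k4
    induction x using Sym2.ind with
    | _ u v =>
      have : G.Adj u v ↔ H.Adj u v := by
        rw [hH]
        constructor
        · intro hg; exact ⟨Or.inl ⟨hg, k1, k2⟩, hg.ne⟩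
        · rintro ⟨h' | h' | h', _⟩
          · exact h'.1
          · exact absurd h' k3
          · exact absurd h' k4
      by_cases hg : G.Adj u v
      · rw [ev_one hg, ev_one (this.1 hg)]
      · rw [ev_zero hg, ev_zero (fun h' => hg (this.2 h'))]
  have x1 : ev G s(a, b) = 1 := ev_one h1
  have x2 : ev G s(c, e) = 1 := ev_one h2
  have x3 : ev G s(a, c) = 0 := ev_zero h3
  have x4 : ev G s(b, e) = 0 := ev_zero h4
  have y1 : ev H s(a, b) = 0 := ev_zero fun h' => by
    rcases ((hH a b).1 h').1 with h'' | h'' | h''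
    · exact h''.2.1 rfl
    · exact s_ne (Or.inr hbc) (Or.inl hac) h''
    · exact s_ne (Or.inl hab) (Or.inl hae) h''
  have y2 : ev H s(c, e) = 0 := ev_zero fun h' => by
    rcases ((hH c e).1 h').1 with h'' | h'' | h''
    · exact h''.2.2 rfl
    · exact s_ne (Or.inl hac.symm) (Or.inr hae.symm) h''
    · exact s_ne (Or.inl hbc.symm) (Or.inl hce) h''
  have y3 : ev H s(a, c) = 1 := ev_one ((hH a c).2 ⟨Or.inr (Or.inl rfl), hac⟩)
  have y4 : ev H s(b, e) = 1 := ev_one ((hH b e).2 ⟨Or.inr (Or.inr rfl), hbe⟩)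
  have key : ∀ v w₁ w₂ : Fin n, w₁ ≠ w₂ →
      (∀ w, w ≠ w₁ → w ≠ w₂ → s(v, w) ≠ s(a, b) ∧ s(v, w) ≠ s(c, e) ∧ s(v, w) ≠ s(a, c) ∧
        s(v, w) ≠ s(b, e)) →
      ev K s(v, w₁) + ev K s(v, w₂) = ev G s(v, w₁) + ev G s(v, w₂) := by
    intro v w₁ w₂ hw hh
    refine two_eq (z := fun w => ev K s(v, w)) (x := fun w => ev G s(v, w)) hw ?_ ?_
    · rw [ev_deg hK, ev_deg hG]
    · intro w k1 k2
      obtain ⟨q1, q2, q3, q4⟩ := hh w k1 k2
      exact h _ (off _ q1 q2 q3 q4)
  have ka := key a b c hbc fun w k1 k2 =>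
    ⟨s_ne (Or.inr k1) (Or.inl hab), s_ne (Or.inl hac) (Or.inl hae),
      s_ne (Or.inr k2) (Or.inl hac), s_ne (Or.inl hab) (Or.inl hae)⟩
  have kb := key b a e hae fun w k1 k2 =>
    ⟨s_ne (Or.inl hab.symm) (Or.inr k1), s_ne (Or.inl hbc) (Or.inl hbe),
      s_ne (Or.inl hab.symm) (Or.inl hbc), s_ne (Or.inr k2) (Or.inl hbe)⟩
  have kc := key c e a (Ne.symm hae) fun w k1 k2 =>
    ⟨s_ne (Or.inl hac.symm) (Or.inl hbc.symm), s_ne (Or.inr k1) (Or.inl hce),
      s_ne (Or.inl hac.symm) (Or.inr k2), s_ne (Or.inl hbc.symm) (Or.inl hce)⟩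
  rw [Sym2.eq_swap (a := b) (b := a), x1, x4] at kb
  rw [Sym2.eq_swap (a := c) (b := a), x2, x3] at kc
  rw [x1, x3] at ka
  rcases ev_01 K s(a, b) with k | k
  · right
    have z3 : ev K s(a, c) = 1 := by linarith
    have z4 : ev K s(b, e) = 1 := by linarith
    have z2 : ev K s(c, e) = 0 := by linarith
    funext x
    by_cases q1 : x = s(a, b)
    · rw [q1, k, y1]
    by_cases q2 : x = s(c, e)
    · rw [q2, z2, y2]
    by_cases q3 : x = s(a, c)
    · rw [q3, z3, y3]
    by_cases q4 : x = s(b, e)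
    · rw [q4, z4, y4]
    have := off x q1 q2 q3 q4
    rw [h x this, this]
  · left
    have z3 : ev K s(a, c) = 0 := by linarith
    have z4 : ev K s(b, e) = 0 := by linarith
    have z2 : ev K s(c, e) = 1 := by linarith
    funext x
    by_cases q1 : x = s(a, b)
    · rw [q1, k, x1]
    by_cases q2 : x = s(c, e)
    · rw [q2, z2, x2]
    by_cases q3 : x = s(a, c)
    · rw [q3, z3, x3]
    by_cases q4 : x = s(b, e)
    · rw [q4, z4, x4]
    exact h x (off x q1 q2 q3 q4)

open Classical in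
/-- **Mihail-Vazirani for degree polytopes.** -/
theorem mv_graphs (d : Fin n → ℕ) :
    MihailVazirani {x : Sym2 (Fin n) → ℝ | ∃ G : SimpleGraph (Fin n), HasDegrees d G ∧
      x = G.edgeSet.indicator 1} := by
  have hset : {x : Sym2 (Fin n) → ℝ | ∃ G : SimpleGraph (Fin n), HasDegrees d G ∧
      x = G.edgeSet.indicator 1} = Set.range fun G : Realization d => ev G.1 := by
    ext x
    constructor
    · rintro ⟨G, hG, rfl⟩
      exact ⟨⟨G, hG⟩, rfl⟩
    · rintro ⟨G, rfl⟩
      exact ⟨G.1, G.2, rfl⟩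
  rw [hset]
  refine mihailVazirani_of _ (fun G H h => Subtype.ext (ev_inj h)) (fun G H => SwitchAdj G.1 H.1)
    (poincare_half d) ?_
  intro G H hGH
  have hfin : (Set.range fun G : Realization d => ev G.1) =
      ((univ.image fun G : Realization d => ev G.1 : Finset (Sym2 (Fin n) → ℝ)) : Set _) := by
    simp
  rw [hfin]
  refine exposed ?_ (Finset.mem_image_of_mem _ (Finset.mem_univ G))
    (Finset.mem_image_of_mem _ (Finset.mem_univ H)) ?_
  · intro v hv i
    obtain ⟨K, _, rfl⟩ := Finset.mem_image.1 hv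
    exact ev_01 _ _
  · intro z hz h
    obtain ⟨K, _, rfl⟩ := Finset.mem_image.1 hz
    exact switch_third G.2 K.2 hGH h

end Graphs

section Matrices

open H586

variable {a b : ℕ} {r : Fin a → ℕ} {c : Fin b → ℕ}

/-- the matrix as a vector -/
noncomputable def mvec (M : Fin a → Fin b → Bool) : Fin a × Fin b → ℝ :=
  fun p => if M p.1 p.2 = true then 1 else 0

theorem mvec_01 (M : Fin a → Fin b → Bool) (p) : mvec M p = 0 ∨ mvec M p = 1 := by
  unfold mvec
  split_ifs
  · exact Or.inr rfl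
  · exact Or.inl rfl

theorem mvec_row (M : Margins r c) (i : Fin a) : ∑ j, mvec M.1 (i, j) = r i := by
  unfold mvec
  rw [Finset.sum_boole]
  exact_mod_cast M.2.1 i

theorem mvec_col (M : Margins r c) (j : Fin b) : ∑ i, mvec M.1 (i, j) = c j := by
  unfold mvec
  rw [Finset.sum_boole]
  exact_mod_cast M.2.2 j

theorem mvec_inj : Function.Injective (mvec (a := a) (b := b)) := by
  intro M N h
  funext i j
  have h1 := congrFun h (i, j)
  unfold mvec at h1
  simp only at h1
  cases hM : M i j <;> cases hN : N i j <;> rw [hM, hN] at h1 <;> simp_all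

theorem bip_third {M N K : Margins r c} (hs : BipAdj M.1 N.1)
    (h : ∀ p, mvec M.1 p = mvec N.1 p → mvec K.1 p = mvec M.1 p) :
    mvec K.1 = mvec M.1 ∨ mvec K.1 = mvec N.1 := by
  obtain ⟨i, i', j, j', hi, hj, h1, h2, h3, h4, h5⟩ := hs
  have hN : ∀ k l, N.1 k l = if (k = i ∨ k = i') ∧ (l = j ∨ l = j') then !(M.1 k l) else M.1 k l := by
    intro k l
    rw [h5]
    unfold bipMove
    rw [if_pos ⟨by rw [h1, h2], by rw [h3, h4], by rw [h1, h3]; decide⟩]
  have off : ∀ p : Fin a × Fin b, ¬ ((p.1 = i ∨ p.1 = i') ∧ (p.2 = j ∨ p.2 = j')) →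
      mvec M.1 p = mvec N.1 p := by
    intro p hp
    unfold mvec
    rw [hN, if_neg hp]
  have x1 : mvec M.1 (i, j) = 1 := by simp [mvec, h1]
  have x2 : mvec M.1 (i', j') = 1 := by simp [mvec, h2]
  have x3 : mvec M.1 (i, j') = 0 := by simp [mvec, h3]
  have x4 : mvec M.1 (i', j) = 0 := by simp [mvec, h4]
  have y1 : mvec N.1 (i, j) = 0 := by simp [mvec, hN, h1]
  have y2 : mvec N.1 (i', j') = 0 := by simp [mvec, hN, h2]
  have y3 : mvec N.1 (i, j') = 1 := by simp [mvec, hN, h3]
  have y4 : mvec N.1 (i', j) = 1 := by simp [mvec, hN, h4]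
  have r1 : mvec K.1 (i, j) + mvec K.1 (i, j') = mvec M.1 (i, j) + mvec M.1 (i, j') :=
    two_eq (z := fun w => mvec K.1 (i, w)) (x := fun w => mvec M.1 (i, w)) hj
      (by rw [mvec_row, mvec_row]) fun w k1 k2 => h _ (off _ fun hh => by
        rcases hh.2 with q | q
        · exact k1 q
        · exact k2 q)
  have r2 : mvec K.1 (i, j) + mvec K.1 (i', j) = mvec M.1 (i, j) + mvec M.1 (i', j) :=
    two_eq (z := fun w => mvec K.1 (w, j)) (x := fun w => mvec M.1 (w, j)) hi
      (by rw [mvec_col, mvec_col]) fun w k1 k2 => h _ (off _ fun hh => by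
        rcases hh.1 with q | q
        · exact k1 q
        · exact k2 q)
  have r3 : mvec K.1 (i, j') + mvec K.1 (i', j') = mvec M.1 (i, j') + mvec M.1 (i', j') :=
    two_eq (z := fun w => mvec K.1 (w, j')) (x := fun w => mvec M.1 (w, j')) hi
      (by rw [mvec_col, mvec_col]) fun w k1 k2 => h _ (off _ fun hh => by
        rcases hh.1 with q | q
        · exact k1 q
        · exact k2 q)
  rw [x1, x3] at r1
  rw [x1, x4] at r2
  rw [x3, x2] at r3
  rcases mvec_01 K.1 (i, j) with k | k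
  · right
    have z3 : mvec K.1 (i, j') = 1 := by linarith
    have z4 : mvec K.1 (i', j) = 1 := by linarith
    have z2 : mvec K.1 (i', j') = 0 := by linarith
    funext p
    by_cases hp : (p.1 = i ∨ p.1 = i') ∧ (p.2 = j ∨ p.2 = j')
    · obtain ⟨u, v⟩ := p
      obtain ⟨hu | hu, hv | hv⟩ := hp <;> simp only at hu hv <;> subst hu <;> subst hv
      · rw [k, y1]
      · rw [z3, y3]
      · rw [z4, y4]
      · rw [z2, y2]
    · have := off p hp
      rw [h p this, this]
  · left
    have z3 : mvec K.1 (i, j') = 0 := by linarith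
    have z4 : mvec K.1 (i', j) = 0 := by linarith
    have z2 : mvec K.1 (i', j') = 1 := by linarith
    funext p
    by_cases hp : (p.1 = i ∨ p.1 = i') ∧ (p.2 = j ∨ p.2 = j')
    · obtain ⟨u, v⟩ := p
      obtain ⟨hu | hu, hv | hv⟩ := hp <;> simp only at hu hv <;> subst hu <;> subst hv
      · rw [k, x1]
      · rw [z3, x3]
      · rw [z4, x4]
      · rw [z2, x2]
    · exact h p (off p hp)

open Classical in
/-- **Mihail-Vazirani for the 0/1 transportation polytopes.** -/
theorem mv_matrices (r : Fin a → ℕ) (c : Fin b → ℕ) :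
    MihailVazirani {x : Fin a × Fin b → ℝ | (∀ p, x p = 0 ∨ x p = 1) ∧
      (∀ i, ∑ j, x (i, j) = r i) ∧ ∀ j, ∑ i, x (i, j) = c j} := by
  have hset : {x : Fin a × Fin b → ℝ | (∀ p, x p = 0 ∨ x p = 1) ∧
      (∀ i, ∑ j, x (i, j) = r i) ∧ ∀ j, ∑ i, x (i, j) = c j} =
      Set.range fun M : Margins r c => mvec M.1 := by
    ext x
    constructor
    · rintro ⟨h01, hr, hc⟩
      have hx : ∀ p : Fin a × Fin b, x p = if x p = 1 then 1 else 0 := by
        intro p
        rcases h01 p with h | h <;> rw [h] <;> norm_num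
      refine ⟨⟨fun i j => decide (x (i, j) = 1), ?_, ?_⟩, ?_⟩
      · intro i
        have h := hr i
        rw [Finset.sum_congr rfl fun j _ => hx (i, j), Finset.sum_boole] at h
        simpa using h
      · intro j
        have h := hc j
        rw [Finset.sum_congr rfl fun i _ => hx (i, j), Finset.sum_boole] at h
        simpa using h
      · funext p
        unfold mvec
        rw [hx p]
        simp
    · rintro ⟨M, rfl⟩
      exact ⟨mvec_01 M.1, mvec_row M, mvec_col M⟩
  rw [hset]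
  rcases isEmpty_or_nonempty (Margins r c) with he | he
  · intro S T hST _ _
    have : (S : Set (Fin a × Fin b → ℝ)) ⊆ ∅ := by
      rw [← Set.range_eq_empty (fun M : Margins r c => mvec M.1), ← hST]
      exact Set.subset_union_left
    have h0 : S = ∅ := by
      rw [← Finset.coe_eq_empty]
      exact Set.subset_empty_iff.1 this
    rw [h0]
    simp
  refine mihailVazirani_of _ (fun G H h => Subtype.ext (mvec_inj h))
    (fun G H => BipAdj G.1 H.1) (fun f => bip_poincare f) ?_
  intro G H hGH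
  have hfin : (Set.range fun M : Margins r c => mvec M.1) =
      ((univ.image fun M : Margins r c => mvec M.1 : Finset (Fin a × Fin b → ℝ)) : Set _) := by
    simp
  rw [hfin]
  refine exposed ?_ (Finset.mem_image_of_mem _ (Finset.mem_univ G))
    (Finset.mem_image_of_mem _ (Finset.mem_univ H)) ?_
  · intro v hv i
    obtain ⟨K, _, rfl⟩ := Finset.mem_image.1 hv
    exact mvec_01 _ _
  · intro z hz h
    obtain ⟨K, _, rfl⟩ := Finset.mem_image.1 hz
    exact bip_third hGH h

end Matrices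

end Vale.Agent.P335.H498
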