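import Vale.Agent.P335.H498.MV
import Vale.Agent.P335.H498.Defs

/-!
# The spectral form

For the convex hull of the simple graphs with given degrees and of the 0/1 matrices with given row
and column sums: edge expansion at least one and algebraic connectivity at least two.
-/

namespace Vale.Agent.P335.H498

open Finset

open Classical in
theorem expandingPolytope_of {ι Ω : Type*} [Fintype Ω] (φ : Ω → ι → ℝ)
    (hφ : Function.Injective φ) (R : Ω → Ω → Prop)
    (hP : ∀ f : Ω → ℝ, ∑ G, ∑ H, (f G - f H) ^ 2 ≤ 1 / 2 * (Fintype.card Ω : ℝ) *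
      ∑ G, ∑ H, (if R G H then (f G - f H) ^ 2 else 0))
    (hE : ∀ G H, R G H → IsExposed ℝ (convexHull ℝ (Set.range φ)) (segment ℝ (φ G) (φ H))) :
    ExpandingPolytope (univ.image φ) := by
  have hco : ((univ.image φ : Finset (ι → ℝ)) : Set (ι → ℝ)) = Set.range φ := by simp
  refine ⟨?_, ?_⟩
  · intro S hS hc
    have h1 := mihailVazirani_of φ hφ R hP hE S (univ.image φ \ S) (by
      rw [← Finset.coe_union, Finset.union_sdiff_of_subset hS, hco]) Finset.disjoint_sdiff (by
      rw [Finset.card_sdiff_of_subset hS]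
      omega)
    rw [hco]
    exact h1
  · intro f
    have h1 := hP (fun G => f (φ G))
    have h2 : ∑ x ∈ univ.image φ, ∑ y ∈ univ.image φ, (f x - f y) ^ 2 =
        ∑ G, ∑ H, (f (φ G) - f (φ H)) ^ 2 := by
      rw [Finset.sum_image fun x _ y _ h => hφ h]
      refine Finset.sum_congr rfl fun G _ => ?_
      rw [Finset.sum_image fun x _ y _ h => hφ h]
    have h3 : ((univ.image φ : Finset (ι → ℝ)).card : ℝ) = Fintype.card Ω := by
      rw [Finset.card_image_of_injective _ hφ, Finset.card_univ]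
    rw [h2, h3]
    refine h1.trans ?_
    have h4 : (1 / 2 * (Fintype.card Ω : ℝ)) = (Fintype.card Ω : ℝ) / 2 := by ring
    rw [h4]
    refine mul_le_mul_of_nonneg_left ?_ (by positivity)
    rw [hco, Finset.sum_filter, Finset.sum_product, Finset.sum_image fun x _ y _ h => hφ h]
    refine Finset.sum_le_sum fun G _ => ?_
    rw [Finset.sum_image fun x _ y _ h => hφ h]
    refine Finset.sum_le_sum fun H _ => ?_
    simp only
    by_cases hR : R G H
    · by_cases hne : φ G = φ H
      · rw [if_pos hR, hne, sub_self]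
        simp
      · rw [if_pos hR, if_pos ⟨hne, hE G H hR⟩]
    · rw [if_neg hR]
      split_ifs
      · positivity
      · exact le_rfl

open Classical in
theorem expandingPolytope_of' {ι Ω : Type*} [Fintype Ω] (φ : Ω → ι → ℝ)
    (hφ : Function.Injective φ) (R : Ω → Ω → Prop)
    (hP : ∀ f : Ω → ℝ, ∑ G, ∑ H, (f G - f H) ^ 2 ≤ 1 / 2 * (Fintype.card Ω : ℝ) *
      ∑ G, ∑ H, (if R G H then (f G - f H) ^ 2 else 0))
    (hE : ∀ G H, R G H → IsExposed ℝ (convexHull ℝ (Set.range φ)) (segment ℝ (φ G) (φ H)))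
    (V : Finset (ι → ℝ)) (hV : ∀ x, x ∈ V ↔ ∃ G, φ G = x) : ExpandingPolytope V := by
  have : V = univ.image φ := by
    ext x
    rw [hV]
    simp
  rw [this]
  exact expandingPolytope_of φ hφ R hP hE

open Classical H586 in
/-- a 0/1 vector with the right sums as a matrix -/
noncomputable def toMargins {a b : ℕ} (r : Fin a → ℕ) (c : Fin b → ℕ) (x : Fin a × Fin b → ℝ)
    (h : (∀ p, x p = 0 ∨ x p = 1) ∧ (∀ i, ∑ j, x (i, j) = r i) ∧ ∀ j, ∑ i, x (i, j) = c j) :
    {M : Margins r c // mvec M.1 = x} := by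
  have hx : ∀ p : Fin a × Fin b, x p = if x p = 1 then 1 else 0 := by
    intro p
    rcases h.1 p with h | h <;> rw [h] <;> norm_num
  refine ⟨⟨fun i j => decide (x (i, j) = 1), ?_, ?_⟩, ?_⟩
  · intro i
    have h := h.2.1 i
    rw [Finset.sum_congr rfl fun j _ => hx (i, j), Finset.sum_boole] at h
    simpa using h
  · intro j
    have h := h.2.2 j
    rw [Finset.sum_congr rfl fun i _ => hx (i, j), Finset.sum_boole] at h
    simpa using h
  · funext p
    unfold mvec
    rw [hx p]
    simp

open Classical in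
theorem exposed_switch {n : ℕ} (d : Fin n → ℕ) (G H : Realization d)
    (hGH : SwitchAdj G.1 H.1) :
    IsExposed ℝ (convexHull ℝ (Set.range fun G : Realization d => ev G.1))
      (segment ℝ (ev G.1) (ev H.1)) := by
  have hfin : (Set.range fun G : Realization d => ev G.1) =
      ((univ.image fun G : Realization d => ev G.1 : Finset (Sym2 (Fin n) → ℝ)) : Set _) := by
    simp
  rw [hfin]
  refine exposed ?_ (Finset.mem_image_of_mem _ (Finset.mem_univ G))
    (Finset.mem_image_of_mem _ (Finset.mem_univ H)) ?_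
  · intro v hv i
    obtain ⟨K, _, rfl⟩ := Finset.mem_image.1 hv
    exact ev_01 _ _
  · intro z hz h
    obtain ⟨K, _, rfl⟩ := Finset.mem_image.1 hz
    exact switch_third G.2 K.2 hGH h

open Classical H586 in
theorem exposed_bip {a b : ℕ} (r : Fin a → ℕ) (c : Fin b → ℕ) (G H : Margins r c)
    (hGH : BipAdj G.1 H.1) :
    IsExposed ℝ (convexHull ℝ (Set.range fun M : Margins r c => mvec M.1))
      (segment ℝ (mvec G.1) (mvec H.1)) := by
  have hfin : (Set.range fun M : Margins r c => mvec M.1) =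
      ((univ.image fun M : Margins r c => mvec M.1 : Finset (Fin a × Fin b → ℝ)) : Set _) := by
    simp
  rw [hfin]
  refine exposed ?_ (Finset.mem_image_of_mem _ (Finset.mem_univ G))
    (Finset.mem_image_of_mem _ (Finset.mem_univ H)) ?_
  · intro v hv i
    obtain ⟨K, _, rfl⟩ := Finset.mem_image.1 hv
    exact mvec_01 _ _
  · intro z hz h
    obtain ⟨K, _, rfl⟩ := Finset.mem_image.1 hz
    exact bip_third hGH h

open Classical in
/-- degree polytopes -/
theorem expanding_graphs {n : ℕ} (d : Fin n → ℕ) (V : Finset (Sym2 (Fin n) → ℝ))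
    (hV : ∀ x, x ∈ V ↔ ∃ G : SimpleGraph (Fin n), HasDegrees d G ∧
      x = G.edgeSet.indicator 1) : ExpandingPolytope V := by
  refine expandingPolytope_of' (fun G : Realization d => ev G.1)
    (fun G H h => Subtype.ext (ev_inj h)) (fun G H => SwitchAdj G.1 H.1) (poincare_half d)
    (exposed_switch d) V fun x => (hV x).trans ⟨?_, ?_⟩
  · rintro ⟨G, hG, rfl⟩
    exact ⟨⟨G, hG⟩, rfl⟩
  · rintro ⟨G, rfl⟩
    exact ⟨G.1, G.2, rfl⟩

open Classical H586 in
/-- 0/1 transportation polytopes -/
theorem expanding_matrices {a b : ℕ} (r : Fin a → ℕ) (c : Fin b → ℕ)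
    (V : Finset (Fin a × Fin b → ℝ))
    (hV : ∀ x, x ∈ V ↔ (∀ p, x p = 0 ∨ x p = 1) ∧
      (∀ i, ∑ j, x (i, j) = r i) ∧ ∀ j, ∑ i, x (i, j) = c j) : ExpandingPolytope V := by
  rcases isEmpty_or_nonempty (Margins r c) with he | he
  · have h0 : V = ∅ := by
      rw [Finset.eq_empty_iff_forall_notMem]
      intro x hx
      exact he.elim (toMargins r c x ((hV x).1 hx)).1
    rw [h0]
    refine ⟨fun S hS _ => ?_, fun f => ?_⟩
    · rw [Finset.subset_empty.1 hS]
      simp
    · simp
  refine expandingPolytope_of' (fun M : Margins r c => mvec M.1)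
    (fun G H h => Subtype.ext (mvec_inj h)) (fun G H => BipAdj G.1 H.1)
    (fun f => bip_poincare f) (exposed_bip r c) V fun x => (hV x).trans ⟨?_, ?_⟩
  · intro h
    exact ⟨(toMargins r c x h).1, (toMargins r c x h).2⟩
  · rintro ⟨M, rfl⟩
    exact ⟨mvec_01 M.1, mvec_row M, mvec_col M⟩

end Vale.Agent.P335.H498
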